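import Vale.Agent.P224.PO.SubO

/-!
Certificate data in dimension 2: the elements of the blocks (vector, outer variable, inner
polynomial).
-/

namespace Vale.Agent.P224.R2.H614.CB

open Vale.Agent.P224.POS Vale.Agent.P224.PO

noncomputable section

/-- elements of block 0 -/
def els0 : List (Nat × Nat × PE) := [
  (1, 0, .mul (.pow (.v 0) 2) (.v 1)),
  (1, 0, .mul (.mul (.pow (.v 0) 2) (.v 1)) (.v 3)),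
  (1, 0, .mul (.pow (.v 0) 4) (.v 1)),
  (1, 4, .pow (.v 0) 4),
  (1, 4, .mul (.pow (.v 0) 4) (.v 3)),
  (1, 4, .pow (.v 0) 6),
  (1, 6, .mul (.pow (.v 0) 2) (.v 1)),
  (1, 6, .mul (.pow (.v 0) 4) (.v 1)),
  (1, 7, .mul (.pow (.v 0) 2) (.v 2)),
  (1, 7, .mul (.pow (.v 0) 4) (.v 2)),
  (2, 0, .v 2),
  (2, 0, .mul (.v 2) (.v 3)),
  (2, 0, .mul (.pow (.v 0) 2) (.v 2)),
  (2, 0, .mul (.mul (.pow (.v 0) 2) (.v 2)) (.v 3)),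
  (2, 0, .mul (.pow (.v 0) 4) (.v 2)),
  (2, 0, .sub (.mul (.v 2) (.v 6)) (.mul (.v 1) (.v 7))),
  (2, 5, .pow (.v 0) 2),
  (2, 5, .mul (.pow (.v 0) 2) (.v 3)),
  (2, 5, .pow (.v 0) 4),
  (2, 5, .mul (.pow (.v 0) 4) (.v 3)),
  (2, 5, .pow (.v 0) 6),
  (2, 6, .mul (.pow (.v 0) 2) (.v 2)),
  (2, 6, .mul (.pow (.v 0) 4) (.v 2)),
  (2, 7, .mul (.pow (.v 0) 2) (.v 1)),
  (2, 7, .mul (.pow (.v 0) 4) (.v 1)),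
  (3, 0, .pow (.v 2) 2),
  (3, 0, .pow (.v 1) 2),
  (3, 0, .mul (.pow (.v 0) 2) (.v 3)),
  (3, 0, .mul (.pow (.v 0) 2) (.pow (.v 3) 2)),
  (3, 0, .mul (.pow (.v 0) 2) (.pow (.v 2) 2)),
  (3, 0, .mul (.pow (.v 0) 2) (.pow (.v 1) 2)),
  (3, 0, .pow (.v 0) 4),
  (3, 0, .mul (.pow (.v 0) 4) (.v 3)),
  (3, 0, .pow (.v 0) 6),
  (3, 4, .mul (.pow (.v 0) 2) (.v 1)),
  (3, 4, .mul (.pow (.v 0) 4) (.v 1)),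
  (3, 5, .mul (.pow (.v 0) 2) (.v 2)),
  (3, 5, .mul (.pow (.v 0) 4) (.v 2)),
  (3, 6, .pow (.v 0) 4),
  (3, 6, .mul (.pow (.v 0) 4) (.v 3)),
  (3, 6, .pow (.v 0) 6),
  (4, 0, .mul (.v 1) (.v 2)),
  (4, 0, .mul (.mul (.pow (.v 0) 2) (.v 1)) (.v 2)),
  (4, 4, .mul (.pow (.v 0) 2) (.v 2)),
  (4, 4, .mul (.pow (.v 0) 4) (.v 2)),
  (4, 5, .mul (.pow (.v 0) 2) (.v 1)),
  (4, 5, .mul (.pow (.v 0) 4) (.v 1)),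
  (4, 7, .pow (.v 0) 4),
  (4, 7, .mul (.pow (.v 0) 4) (.v 3)),
  (4, 7, .pow (.v 0) 6),
  (5, 0, .pow (.v 0) 4),
  (5, 0, .mul (.pow (.v 0) 4) (.v 3)),
  (5, 0, .pow (.v 0) 6)]

/-- elements of block 1 -/
def els1 : List (Nat × Nat × PE) := [
  (1, 0, .pow (.v 2) 2),
  (1, 0, .pow (.v 1) 2),
  (1, 0, .mul (.pow (.v 0) 2) (.pow (.v 2) 2)),
  (1, 0, .mul (.pow (.v 0) 2) (.pow (.v 1) 2)),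
  (1, 0, .pow (.v 0) 4),
  (1, 0, .mul (.pow (.v 0) 4) (.v 3)),
  (1, 0, .pow (.v 0) 6),
  (1, 0, .sub (.mul (.pow (.v 0) 2) (.v 3)) (.mul (.pow (.v 0) 2) (.pow (.v 3) 2))),
  (1, 4, .mul (.pow (.v 0) 2) (.v 1)),
  (1, 4, .mul (.pow (.v 0) 4) (.v 1)),
  (1, 5, .mul (.pow (.v 0) 2) (.v 2)),
  (1, 5, .mul (.pow (.v 0) 4) (.v 2)),
  (1, 6, .pow (.v 0) 4),
  (1, 6, .mul (.pow (.v 0) 4) (.v 3)),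
  (1, 6, .pow (.v 0) 6),
  (2, 0, .mul (.v 1) (.v 2)),
  (2, 0, .mul (.mul (.pow (.v 0) 2) (.v 1)) (.v 2)),
  (2, 4, .v 2),
  (2, 4, .mul (.pow (.v 0) 2) (.v 2)),
  (2, 4, .mul (.pow (.v 0) 4) (.v 2)),
  (2, 5, .v 1),
  (2, 5, .mul (.pow (.v 0) 2) (.v 1)),
  (2, 5, .mul (.pow (.v 0) 4) (.v 1)),
  (2, 7, .pow (.v 0) 2),
  (2, 7, .mul (.pow (.v 0) 2) (.v 3)),
  (2, 7, .pow (.v 0) 4),
  (2, 7, .mul (.pow (.v 0) 4) (.v 3)),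
  (2, 7, .pow (.v 0) 6),
  (3, 0, .mul (.pow (.v 0) 2) (.v 1)),
  (3, 0, .mul (.mul (.pow (.v 0) 2) (.v 1)) (.v 3)),
  (3, 0, .mul (.pow (.v 0) 4) (.v 1)),
  (3, 4, .mul (.pow (.v 0) 2) (.v 3)),
  (3, 4, .pow (.v 0) 4),
  (3, 4, .mul (.pow (.v 0) 4) (.v 3)),
  (3, 4, .pow (.v 0) 6),
  (3, 6, .mul (.pow (.v 0) 2) (.v 1)),
  (3, 6, .mul (.pow (.v 0) 4) (.v 1)),
  (3, 7, .mul (.pow (.v 0) 2) (.v 2)),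
  (3, 7, .mul (.pow (.v 0) 4) (.v 2)),
  (4, 0, .mul (.pow (.v 0) 2) (.v 2)),
  (4, 0, .mul (.mul (.pow (.v 0) 2) (.v 2)) (.v 3)),
  (4, 0, .mul (.pow (.v 0) 4) (.v 2)),
  (4, 5, .pow (.v 0) 2),
  (4, 5, .mul (.pow (.v 0) 2) (.v 3)),
  (4, 5, .pow (.v 0) 4),
  (4, 5, .mul (.pow (.v 0) 4) (.v 3)),
  (4, 5, .pow (.v 0) 6),
  (4, 6, .mul (.pow (.v 0) 2) (.v 2)),
  (4, 6, .mul (.pow (.v 0) 4) (.v 2)),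
  (4, 7, .mul (.pow (.v 0) 2) (.v 1)),
  (4, 7, .mul (.pow (.v 0) 4) (.v 1)),
  (5, 0, .mul (.pow (.v 0) 2) (.v 1)),
  (5, 0, .mul (.pow (.v 0) 4) (.v 1))]

/-- elements of block 2 -/
def els2 : List (Nat × Nat × PE) := [
  (1, 0, .mul (.pow (.v 0) 2) (.v 2)),
  (1, 0, .mul (.mul (.pow (.v 0) 2) (.v 2)) (.v 3)),
  (1, 0, .mul (.pow (.v 0) 4) (.v 2)),
  (1, 5, .pow (.v 0) 2),
  (1, 5, .mul (.pow (.v 0) 2) (.v 3)),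
  (1, 5, .pow (.v 0) 4),
  (1, 5, .mul (.pow (.v 0) 4) (.v 3)),
  (1, 5, .pow (.v 0) 6),
  (1, 6, .mul (.pow (.v 0) 2) (.v 2)),
  (1, 6, .mul (.pow (.v 0) 4) (.v 2)),
  (1, 7, .mul (.pow (.v 0) 2) (.v 1)),
  (1, 7, .mul (.pow (.v 0) 4) (.v 1)),
  (2, 0, .v 1),
  (2, 0, .mul (.v 1) (.v 3)),
  (2, 0, .mul (.pow (.v 0) 2) (.v 1)),
  (2, 0, .mul (.mul (.pow (.v 0) 2) (.v 1)) (.v 3)),
  (2, 0, .mul (.pow (.v 0) 4) (.v 1)),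
  (2, 0, .sub (.mul (.v 1) (.v 6)) (.mul (.v 2) (.v 7))),
  (2, 4, .pow (.v 0) 2),
  (2, 4, .mul (.pow (.v 0) 2) (.v 3)),
  (2, 4, .pow (.v 0) 4),
  (2, 4, .mul (.pow (.v 0) 4) (.v 3)),
  (2, 4, .pow (.v 0) 6),
  (2, 6, .mul (.pow (.v 0) 2) (.v 1)),
  (2, 6, .mul (.pow (.v 0) 4) (.v 1)),
  (2, 7, .mul (.pow (.v 0) 2) (.v 2)),
  (2, 7, .mul (.pow (.v 0) 4) (.v 2)),
  (3, 0, .mul (.v 1) (.v 2)),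
  (3, 0, .mul (.mul (.pow (.v 0) 2) (.v 1)) (.v 2)),
  (3, 4, .mul (.pow (.v 0) 2) (.v 2)),
  (3, 4, .mul (.pow (.v 0) 4) (.v 2)),
  (3, 5, .mul (.pow (.v 0) 2) (.v 1)),
  (3, 5, .mul (.pow (.v 0) 4) (.v 1)),
  (3, 7, .pow (.v 0) 4),
  (3, 7, .mul (.pow (.v 0) 4) (.v 3)),
  (3, 7, .pow (.v 0) 6),
  (4, 0, .pow (.v 2) 2),
  (4, 0, .pow (.v 1) 2),
  (4, 0, .mul (.pow (.v 0) 2) (.pow (.v 2) 2)),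
  (4, 0, .mul (.pow (.v 0) 2) (.pow (.v 1) 2)),
  (4, 0, .pow (.v 0) 4),
  (4, 0, .mul (.pow (.v 0) 4) (.v 3)),
  (4, 0, .pow (.v 0) 6),
  (4, 0, .sub (.pow (.v 0) 2) (.mul (.pow (.v 0) 2) (.v 3))),
  (4, 0, .sub (.mul (.pow (.v 0) 2) (.v 3)) (.mul (.pow (.v 0) 2) (.pow (.v 3) 2))),
  (4, 4, .mul (.pow (.v 0) 2) (.v 1)),
  (4, 4, .mul (.pow (.v 0) 4) (.v 1)),
  (4, 5, .mul (.pow (.v 0) 2) (.v 2)),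
  (4, 5, .mul (.pow (.v 0) 4) (.v 2)),
  (4, 6, .pow (.v 0) 4),
  (4, 6, .mul (.pow (.v 0) 4) (.v 3)),
  (4, 6, .pow (.v 0) 6)]

/-- elements of block 3 -/
def els3 : List (Nat × Nat × PE) := [
  (1, 0, .mul (.v 1) (.v 2)),
  (1, 0, .mul (.mul (.pow (.v 0) 2) (.v 1)) (.v 2)),
  (1, 4, .mul (.pow (.v 0) 2) (.v 2)),
  (1, 4, .mul (.pow (.v 0) 4) (.v 2)),
  (1, 5, .mul (.pow (.v 0) 2) (.v 1)),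
  (1, 5, .mul (.pow (.v 0) 4) (.v 1)),
  (1, 7, .pow (.v 0) 4),
  (1, 7, .mul (.pow (.v 0) 4) (.v 3)),
  (1, 7, .pow (.v 0) 6),
  (2, 0, .pow (.v 2) 2),
  (2, 0, .pow (.v 1) 2),
  (2, 0, .pow (.v 0) 2),
  (2, 0, .mul (.pow (.v 0) 2) (.v 3)),
  (2, 0, .mul (.pow (.v 0) 2) (.pow (.v 3) 2)),
  (2, 0, .mul (.pow (.v 0) 2) (.pow (.v 2) 2)),
  (2, 0, .mul (.pow (.v 0) 2) (.pow (.v 1) 2)),
  (2, 0, .pow (.v 0) 4),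
  (2, 0, .mul (.pow (.v 0) 4) (.v 3)),
  (2, 0, .pow (.v 0) 6),
  (2, 4, .v 1),
  (2, 4, .mul (.pow (.v 0) 2) (.v 1)),
  (2, 4, .mul (.pow (.v 0) 4) (.v 1)),
  (2, 5, .v 2),
  (2, 5, .mul (.pow (.v 0) 2) (.v 2)),
  (2, 5, .mul (.pow (.v 0) 4) (.v 2)),
  (2, 6, .pow (.v 0) 2),
  (2, 6, .mul (.pow (.v 0) 2) (.v 3)),
  (2, 6, .pow (.v 0) 4),
  (2, 6, .mul (.pow (.v 0) 4) (.v 3)),
  (2, 6, .pow (.v 0) 6),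
  (3, 0, .mul (.pow (.v 0) 2) (.v 2)),
  (3, 0, .mul (.mul (.pow (.v 0) 2) (.v 2)) (.v 3)),
  (3, 0, .mul (.pow (.v 0) 4) (.v 2)),
  (3, 5, .pow (.v 0) 2),
  (3, 5, .mul (.pow (.v 0) 2) (.v 3)),
  (3, 5, .pow (.v 0) 4),
  (3, 5, .mul (.pow (.v 0) 4) (.v 3)),
  (3, 5, .pow (.v 0) 6),
  (3, 6, .mul (.pow (.v 0) 2) (.v 2)),
  (3, 6, .mul (.pow (.v 0) 4) (.v 2)),
  (3, 7, .mul (.pow (.v 0) 2) (.v 1)),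
  (3, 7, .mul (.pow (.v 0) 4) (.v 1)),
  (4, 0, .mul (.pow (.v 0) 2) (.v 1)),
  (4, 0, .mul (.mul (.pow (.v 0) 2) (.v 1)) (.v 3)),
  (4, 0, .mul (.pow (.v 0) 4) (.v 1)),
  (4, 4, .pow (.v 0) 4),
  (4, 4, .mul (.pow (.v 0) 4) (.v 3)),
  (4, 4, .pow (.v 0) 6),
  (4, 4, .sub (.pow (.v 0) 2) (.mul (.pow (.v 0) 2) (.v 3))),
  (4, 6, .mul (.pow (.v 0) 2) (.v 1)),
  (4, 6, .mul (.pow (.v 0) 4) (.v 1)),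
  (4, 7, .mul (.pow (.v 0) 2) (.v 2)),
  (4, 7, .mul (.pow (.v 0) 4) (.v 2)),
  (5, 0, .mul (.pow (.v 0) 2) (.v 2)),
  (5, 0, .mul (.pow (.v 0) 4) (.v 2))]

end

end Vale.Agent.P224.R2.H614.CB
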